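import Vale.Agent.P024.M3.SpecG

/-!
The first inequality with a finite set `T` of split primes, for all number fields.
-/

namespace Vale.Agent.P024.M3T

open NumberField IsDedekindDomain Vale.Agent.P024.M3

/-- The elements of `Fˣ` which are units at all primes of `F` outside `T`. -/
def UFT {F : Type*} [Field F] [NumberField F] (T : Set (HeightOneSpectrum (𝓞 F))) :
    Subgroup Fˣ where
  carrier := {x | ∀ w : HeightOneSpectrum (𝓞 F), w ∉ T → w.valuation F (x : F) = 1}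
  one_mem' := by intro w _; simp
  mul_mem' := by intro x y hx hy w hw; simp [hx w hw, hy w hw]
  inv_mem' := by intro x hx w hw; simp [hx w hw]

/-- The elements of `Lˣ` which are units at all primes of `L` not above the primes of `F` in
`T`. -/
def UUT {F : Type*} (L : Type*) [Field F] [NumberField F] [Field L] [NumberField L] [Algebra F L]
    (T : Set (HeightOneSpectrum (𝓞 F))) : Subgroup Lˣ where
  carrier := {x | ∀ w : HeightOneSpectrum (𝓞 L), (∀ v ∈ T, w.asIdeal.under (𝓞 F) ≠ v.asIdeal) →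
    w.valuation L (x : L) = 1}
  one_mem' := by intro w _; simp
  mul_mem' := by intro x y hx hy w hw; simp [hx w hw, hy w hw]
  inv_mem' := by intro x hx w hw; simp [hx w hw]

/-- (U) Herbrand quotient of the `T`-units; `F` is arbitrary. -/
def PropUT.{u} : Prop := ∀ (F L : Type u) [Field F] [NumberField F] [Field L] [NumberField L]
  [Algebra F L] [IsGalois F L] (σ : L ≃ₐ[F] L), (∀ τ, τ ∈ Subgroup.zpowers σ) →
  Odd (Module.finrank F L) → ∀ T : Set (HeightOneSpectrum (𝓞 F)), T.Finite →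
  (∀ v ∈ T, Split L v) → h0 (dd σ) (nn F L) (UUT L T) ≠ 0 ∧
    h1 (dd σ) (nn F L) (UUT L T) = Module.finrank F L * h0 (dd σ) (nn F L) (UUT L T)

/-- (A) ambiguous ideals. -/
def PropAT.{u} : Prop := ∀ (F L : Type u) [Field F] [NumberField F] [Field L] [NumberField L]
  [Algebra F L] [IsGalois F L] (σ : L ≃ₐ[F] L), (∀ τ, τ ∈ Subgroup.zpowers σ) →
  ∀ (p : ℕ), p.Prime → (∀ w : HeightOneSpectrum (𝓞 L), (p : 𝓞 L) ∉ w.asIdeal → Unr F w) →
  ∀ T : Set (HeightOneSpectrum (𝓞 F)), T.Finite → (∀ v ∈ T, (p : 𝓞 F) ∉ v.asIdeal) →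
  e1 (dd σ) (RR L p) ≠ 0 → e1 (dd σ) (UUT L T) ≤ classNumber F * e1 (dd σ) (RR L p)

/-- (TR) transfer of the `T`-units. -/
def PropTRT.{u} : Prop := ∀ (F L : Type u) [Field F] [NumberField F] [Field L] [NumberField L]
  [Algebra F L] [IsGalois F L] (σ : L ≃ₐ[F] L), (∀ τ, τ ∈ Subgroup.zpowers σ) →
  ∀ T : Set (HeightOneSpectrum (𝓞 F)),
    UUT L T ⊓ (dd σ).ker = (UFT T).map (Units.map (algebraMap F L : F →* L))

/-- The `T`-units of `F` have bounded index modulo all powers of `p`. -/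
def ClosT (F : Type*) [Field F] [NumberField F] (p : ℕ) (T : Set (HeightOneSpectrum (𝓞 F))) :
    Prop :=
  ∃ C : ℕ, ∀ k : ℕ, (UFT T ⊔ VS F p k).relIndex (RR F p) ≠ 0 ∧
    (UFT T ⊔ VS F p k).relIndex (RR F p) ≤ C

/-- (G) the Galois side: the cyclic layers of a character of infinite order. -/
def PropGT.{u} : Prop := ∀ (F : Type u) [Field F] [NumberField F] (p : ℕ) [Fact p.Prime], p ≠ 2 →
  ∀ ψ : (AlgebraicClosure F ≃ₐ[F] AlgebraicClosure F) →* ℤ_[p]ˣ, Continuous ψ →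
  (¬ ∃ m : ℕ, 0 < m ∧ ∀ g, ψ g ^ m = 1) → ∀ T : Set (HeightOneSpectrum (𝓞 F)),
  (∀ v ∈ T, (p : 𝓞 F) ∉ v.asIdeal) → (∀ v ∈ T, TR.Kills ψ v) →
  ∀ B : ℕ, ∃ (L : Type u) (_ : Field L) (_ : NumberField L) (_ : Algebra F L)
    (_ : IsGalois F L) (σ : L ≃ₐ[F] L), (∀ τ, τ ∈ Subgroup.zpowers σ) ∧
    Odd (Module.finrank F L) ∧
    (∀ w : HeightOneSpectrum (𝓞 L), (p : 𝓞 L) ∉ w.asIdeal → Unr F w) ∧
    (∀ v ∈ T, Split L v) ∧ B < Module.finrank F L

end Vale.Agent.P024.M3T
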